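import Vale.Agent.P268.T.N625.Real

/-!
# P268, topological half: coplanar moves, class `R` version (zeros only, data merely continuous)
-/

set_option linter.unusedSectionVars false

namespace Vale.Agent.P268.T

open Set Filter Topology

variable {E : Type*} [NormedAddCommGroup E] [NormedSpace ℝ E]
  {T : Type*} [TopologicalSpace T]

/-- Lipschitz along the direction `a` near `(t₀, x₀)`. -/
def DirLip (s : Set T) (f : T → E → ℝ) (t₀ : T) (x₀ : E) (a : E) : Prop :=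
  ∃ L : ℝ, ∃ U ∈ 𝓝 x₀, ∀ᶠ t in 𝓝[s] t₀, ∀ x ∈ U, ∀ τ : ℝ, x + τ • a ∈ U →
    |f t (x + τ • a) - f t x| ≤ L * |τ|

theorem LocLip.dirLip {s : Set T} {f : T → E → ℝ} {t₀ : T} {x₀ : E}
    (h : LocLip s f t₀ x₀) (a : E) : DirLip s f t₀ x₀ a := by
  obtain ⟨L, U, hU, h⟩ := h
  refine ⟨|L| * ‖a‖, U, hU, h.mono fun t ht x hx τ hτ => ?_⟩
  have h1 := ht _ hτ x hx
  rw [add_sub_cancel_left, norm_smul, Real.norm_eq_abs, Real.norm_eq_abs] at h1
  refine h1.trans ?_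
  calc L * (|τ| * ‖a‖) ≤ |L| * (|τ| * ‖a‖) :=
        mul_le_mul_of_nonneg_right (le_abs_self L) (by positivity)
    _ = _ := by ring

theorem DirLip.max {s : Set T} {f g : T → E → ℝ} {t₀ : T} {x₀ : E} {a : E}
    (hf : DirLip s f t₀ x₀ a) (hg : DirLip s g t₀ x₀ a) :
    DirLip s (fun t x => max (f t x) (g t x)) t₀ x₀ a := by
  obtain ⟨L, U, hU, h⟩ := hf
  obtain ⟨L', V, hV, h'⟩ := hg
  refine ⟨Max.max L L', U ∩ V, inter_mem hU hV, ?_⟩
  filter_upwards [h, h'] with t h1 h2 x hx τ hτ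
  refine (abs_max_sub_max_le_max _ _ _ _).trans (max_le ?_ ?_)
  · exact (h1 x hx.1 τ hτ.1).trans (mul_le_mul_of_nonneg_right (le_max_left _ _) (abs_nonneg _))
  · exact (h2 x hx.2 τ hτ.2).trans (mul_le_mul_of_nonneg_right (le_max_right _ _) (abs_nonneg _))

theorem DirLip.min {s : Set T} {f g : T → E → ℝ} {t₀ : T} {x₀ : E} {a : E}
    (hf : DirLip s f t₀ x₀ a) (hg : DirLip s g t₀ x₀ a) :
    DirLip s (fun t x => min (f t x) (g t x)) t₀ x₀ a := by
  obtain ⟨L, U, hU, h⟩ := hf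
  obtain ⟨L', V, hV, h'⟩ := hg
  refine ⟨Max.max L L', U ∩ V, inter_mem hU hV, ?_⟩
  filter_upwards [h, h'] with t h1 h2 x hx τ hτ
  refine (abs_min_sub_min_le_max _ _ _ _).trans (max_le ?_ ?_)
  · exact (h1 x hx.1 τ hτ.1).trans (mul_le_mul_of_nonneg_right (le_max_left _ _) (abs_nonneg _))
  · exact (h2 x hx.2 τ hτ.2).trans (mul_le_mul_of_nonneg_right (le_max_right _ _) (abs_nonneg _))

theorem DirLip.add {s : Set T} {f g : T → E → ℝ} {t₀ : T} {x₀ : E} {a : E}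
    (hf : DirLip s f t₀ x₀ a) (hg : DirLip s g t₀ x₀ a) :
    DirLip s (fun t x => f t x + g t x) t₀ x₀ a := by
  obtain ⟨L, U, hU, h⟩ := hf
  obtain ⟨L', V, hV, h'⟩ := hg
  refine ⟨L + L', U ∩ V, inter_mem hU hV, ?_⟩
  filter_upwards [h, h'] with t h1 h2 x hx τ hτ
  have e : f t (x + τ • a) + g t (x + τ • a) - (f t x + g t x) =
      (f t (x + τ • a) - f t x) + (g t (x + τ • a) - g t x) := by ring
  rw [e, add_mul]
  exact (abs_add_le _ _).trans (add_le_add (h1 x hx.1 τ hτ.1) (h2 x hx.2 τ hτ.2))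

theorem DirLip.congr {s : Set T} {f g : T → E → ℝ} {t₀ : T} {x₀ : E} {a : E}
    (hf : DirLip s f t₀ x₀ a) (h : ∃ U ∈ 𝓝 x₀, ∀ᶠ t in 𝓝[s] t₀, ∀ x ∈ U, f t x = g t x) :
    DirLip s g t₀ x₀ a := by
  obtain ⟨L, U, hU, h1⟩ := hf
  obtain ⟨V, hV, h2⟩ := h
  refine ⟨L, U ∩ V, inter_mem hU hV, ?_⟩
  filter_upwards [h1, h2] with t e1 e2 x hx τ hτ
  rw [← e2 _ hτ.2, ← e2 _ hx.2]
  exact e1 x hx.1 τ hτ.1

/-- **Realification lemma at a zero**: only the two directions `a` (in `{l = 0}`, the real part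
grows) and `e` (`l e = 1`) matter; the family need not be Lipschitz in the other directions. -/
theorem RegAt.of_real_zero {s : Set T} {F : T → E → ℂ} {t₀ : T} {x₀ : E}
    (l : E →L[ℝ] ℝ) {e : E} (he : l e = 1)
    (him : ∃ U ∈ 𝓝 x₀, ∀ᶠ t in 𝓝[s] t₀, ∀ x ∈ U, (F t x).im = l x)
    {a : E} (ha : l a = 0) (hg : Grows s (fun t x => (F t x).re) t₀ x₀ a)
    (hLa : DirLip s (fun t x => (F t x).re) t₀ x₀ a)
    (hLe : DirLip s (fun t x => (F t x).re) t₀ x₀ e) : RegAt s F t₀ x₀ := by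
  obtain ⟨U1, hU1, him⟩ := him
  obtain ⟨κ, hκ, U3, hU3, hgr⟩ := hg
  obtain ⟨La, Ua, hUa, hLa⟩ := hLa
  obtain ⟨Le, Ue, hUe, hLe⟩ := hLe
  set Λ : ℝ := |Le| with hΛ
  have hΛ0 : 0 ≤ Λ := by positivity
  set M : ℝ := (Λ ^ 2 / 2 + 1 / 2) / κ with hM
  have hM0 : 0 < M := by positivity
  let B : ℂ →L[ℝ] E := (M • Complex.reCLM).smulRight a + Complex.imCLM.smulRight e
  have hB : ∀ c, B c = (M * c.re) • a + c.im • e := fun c => by simp [B]
  obtain ⟨r, hr, hball⟩ := Metric.mem_nhds_iff.mp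
    (inter_mem (inter_mem hU1 (inter_mem hUa hUe)) hU3)
  set δ : ℝ := r / 2 / (1 + M * ‖a‖ + ‖e‖) with hδ
  have hden : 0 < 1 + M * ‖a‖ + ‖e‖ := by positivity
  have hδ0 : 0 < δ := by positivity
  have hδr : δ * (1 + M * ‖a‖ + ‖e‖) = r / 2 := by rw [hδ]; field_simp
  refine RegAt.of_monotone_small (κ := 1 / 2) (Λ := |La| * M + Λ + 1) (by norm_num) hδ0 B
    ⟨Metric.ball x₀ (r / 2), Metric.ball_mem_nhds _ (by linarith), ?_⟩
  filter_upwards [hgr, him, hLa, hLe] with t h1 h2 h3 h4 x hx c hc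
  have hxr : ‖x - x₀‖ < r / 2 := by rwa [Metric.mem_ball, dist_eq_norm] at hx
  have hmem : ∀ y, ‖y - x‖ ≤ r / 2 → y ∈ (U1 ∩ (Ua ∩ Ue)) ∩ U3 := by
    intro y hy
    refine hball ?_
    rw [Metric.mem_ball, dist_eq_norm]
    have : y - x₀ = (y - x) + (x - x₀) := by abel
    rw [this]
    exact (norm_add_le _ _).trans_lt (by linarith)
  have hre : |c.re| ≤ δ := (Complex.abs_re_le_norm c).trans hc
  have him' : |c.im| ≤ δ := (Complex.abs_im_le_norm c).trans hc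
  have hx' : x ∈ (U1 ∩ (Ua ∩ Ue)) ∩ U3 := hmem x (by rw [sub_self, norm_zero]; linarith)
  have hx1 : x + c.im • e ∈ (U1 ∩ (Ua ∩ Ue)) ∩ U3 := by
    refine hmem _ ?_
    rw [add_sub_cancel_left, norm_smul, Real.norm_eq_abs]
    calc |c.im| * ‖e‖ ≤ δ * ‖e‖ := mul_le_mul_of_nonneg_right him' (norm_nonneg _)
      _ ≤ δ * (1 + M * ‖a‖ + ‖e‖) := mul_le_mul_of_nonneg_left (by
          have : 0 ≤ M * ‖a‖ := by positivity
          linarith) hδ0.le
      _ = r / 2 := hδr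
  have hx2 : x + B c ∈ (U1 ∩ (Ua ∩ Ue)) ∩ U3 := by
    refine hmem _ ?_
    rw [add_sub_cancel_left, hB]
    refine (norm_add_le _ _).trans ?_
    rw [norm_smul, norm_smul, Real.norm_eq_abs, Real.norm_eq_abs, abs_mul, abs_of_pos hM0]
    calc M * |c.re| * ‖a‖ + |c.im| * ‖e‖ ≤ M * δ * ‖a‖ + δ * ‖e‖ := by gcongr
      _ = δ * (M * ‖a‖ + ‖e‖) := by ring
      _ ≤ δ * (1 + M * ‖a‖ + ‖e‖) := mul_le_mul_of_nonneg_left (by linarith) hδ0.le
      _ = r / 2 := hδr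
  have e1 : x + B c = (x + c.im • e) + (M * c.re) • a := by rw [hB]; abel
  have hlB : l (B c) = c.im := by
    rw [hB, map_add, map_smul, map_smul, ha, he]
    simp only [smul_eq_mul, mul_zero, zero_add, mul_one]
  have hIm : (F t (x + B c) - F t x).im = c.im := by
    rw [Complex.sub_im, h2 _ hx2.1.1, h2 _ hx'.1.1, ← map_sub, add_sub_cancel_left, hlB]
  set D1 := (F t (x + c.im • e + (M * c.re) • a)).re - (F t (x + c.im • e)).re with hD1
  set D2 := (F t (x + c.im • e)).re - (F t x).re with hD2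
  have hRe : (F t (x + B c) - F t x).re = D1 + D2 := by
    rw [Complex.sub_re, e1, hD1, hD2]; ring
  rw [e1] at hx2
  have g1 := h1 (x + c.im • e) hx1.2 (M * c.re) hx2.2
  have g2 : |D2| ≤ Λ * |c.im| := (h4 x hx'.1.2.2 c.im hx1.1.2.2).trans
    (mul_le_mul_of_nonneg_right (le_abs_self _) (abs_nonneg _))
  have g9 : |D1| ≤ |La| * M * |c.re| := by
    have := h3 _ hx1.1.2.1 (M * c.re) hx2.1.2.1
    rw [abs_mul, abs_of_pos hM0] at this
    refine this.trans ?_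
    calc La * (M * |c.re|) ≤ |La| * (M * |c.re|) :=
          mul_le_mul_of_nonneg_right (le_abs_self La) (by positivity)
      _ = _ := by ring
  constructor
  · rw [inner_complex, hRe, hIm]
    have g3 : κ * M * c.re ^ 2 ≤ c.re * D1 := by
      have : M * (κ * M * c.re ^ 2) ≤ M * (c.re * D1) := by
        calc M * (κ * M * c.re ^ 2) = κ * (M * c.re) ^ 2 := by ring
          _ ≤ M * c.re * D1 := g1
          _ = _ := by ring
      exact le_of_mul_le_mul_left this hM0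
    have g4 : κ * M = Λ ^ 2 / 2 + 1 / 2 := by rw [hM]; field_simp
    rw [g4] at g3
    have g6 : -(Λ * |c.im| * |c.re|) ≤ c.re * D2 := by
      have : |c.re * D2| ≤ Λ * |c.im| * |c.re| := by
        rw [abs_mul, mul_comm]
        exact mul_le_mul_of_nonneg_right g2 (abs_nonneg _)
      exact (abs_le.mp this).1
    have g7 : Λ * |c.im| * |c.re| ≤ Λ ^ 2 / 2 * c.re ^ 2 + 1 / 2 * c.im ^ 2 := by
      rw [← sq_abs c.re, ← sq_abs c.im]
      nlinarith [sq_nonneg (Λ * |c.re| - |c.im|)]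
    have g8 : ‖c‖ ^ 2 = c.re ^ 2 + c.im ^ 2 := by
      rw [Complex.sq_norm, Complex.normSq_apply]; ring
    rw [g8]
    nlinarith
  · refine (Complex.norm_le_abs_re_add_abs_im _).trans ?_
    rw [hRe, hIm]
    have i1 : |D1 + D2| ≤ |La| * M * |c.re| + Λ * |c.im| := (abs_add_le _ _).trans
      (add_le_add g9 g2)
    have i2 : |La| * M * |c.re| ≤ |La| * M * ‖c‖ :=
      mul_le_mul_of_nonneg_left (Complex.abs_re_le_norm c) (by positivity)
    have i3 : Λ * |c.im| ≤ Λ * ‖c‖ := mul_le_mul_of_nonneg_left (Complex.abs_im_le_norm c) hΛ0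
    have i4 := Complex.abs_im_le_norm c
    nlinarith

/-- Families which agree off a closed set with a family of class `R` only have to be checked on
the closed set. -/
theorem RFam.glue {s : Set T} {F G : T → E → ℂ} (hG : RFam s G)
    (cont : ContinuousOn (fun p : T × E => F p.1 p.2) (s ×ˢ univ))
    (hom : ∀ t ∈ s, Hom1 (F t)) {K : Set E} (hK : IsClosed K)
    (hFG : ∀ t ∈ s, ∀ x, x ∉ K → F t x = G t x)
    (hreg : ∀ t ∈ s, ∀ x ∈ K, x ≠ 0 → F t x = 0 → RegAt s F t x) : RFam s F := by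
  refine ⟨cont, hom, fun t ht x hx h0 => ?_⟩
  by_cases hxK : x ∈ K
  · exact hreg t ht x hxK hx h0
  · rw [hFG t ht x hxK] at h0
    refine (hG.reg t ht x hx h0).congr ⟨Kᶜ, hK.isOpen_compl.mem_nhds hxK, ?_⟩
    filter_upwards [self_mem_nhdsWithin] with t' ht' y hy
    exact (hFG t' ht' y hy).symm

end Vale.Agent.P268.T
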