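import Vale.Agent.P268.T.HEq
import Vale.Agent.P268.T.H121.Radial
import Vale.Agent.P268.T.PlatesA

/-!
# P268, topological half: coplanar moves (realification lemma)

If near a point the imaginary part of `F` is a fixed linear coordinate, then regularity at the
points where the real part is nonnegative only has to be checked for the real part, on its zero
level: one direction along which it grows.
-/

set_option linter.unusedSectionVars false

namespace Vale.Agent.P268.T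

open Set Filter Topology

variable {E : Type*} [NormedAddCommGroup E] [NormedSpace ℝ E]
  {T : Type*} [TopologicalSpace T]

/-! ### Growth of real functions along a direction -/

/-- `f` grows along `a` on `U` with slope at least `κ`. -/
def GrowsOn (κ : ℝ) (f : E → ℝ) (a : E) (U : Set E) : Prop :=
  ∀ x ∈ U, ∀ τ : ℝ, x + τ • a ∈ U → κ * τ ^ 2 ≤ τ * (f (x + τ • a) - f x)

/-- The family `f` grows along `a` near `(t₀, x₀)`. -/
def Grows (s : Set T) (f : T → E → ℝ) (t₀ : T) (x₀ : E) (a : E) : Prop :=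
  ∃ κ : ℝ, 0 < κ ∧ ∃ U ∈ 𝓝 x₀, ∀ᶠ t in 𝓝[s] t₀, GrowsOn κ (f t) a U

/-- The family `f` does not decrease along `a` near `(t₀, x₀)`. -/
def WGrows (s : Set T) (f : T → E → ℝ) (t₀ : T) (x₀ : E) (a : E) : Prop :=
  ∃ U ∈ 𝓝 x₀, ∀ᶠ t in 𝓝[s] t₀, GrowsOn 0 (f t) a U

theorem GrowsOn.mono {κ : ℝ} {f : E → ℝ} {a : E} {U V : Set E} (h : GrowsOn κ f a U)
    (hV : V ⊆ U) : GrowsOn κ f a V := fun x hx τ hτ => h x (hV hx) τ (hV hτ)

theorem GrowsOn.mono_const {κ κ' : ℝ} {f : E → ℝ} {a : E} {U : Set E} (h : GrowsOn κ f a U)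
    (hκ : κ' ≤ κ) : GrowsOn κ' f a U := fun x hx τ hτ =>
  (mul_le_mul_of_nonneg_right hκ (sq_nonneg τ)).trans (h x hx τ hτ)

/-- Growth in terms of positive increments only. -/
theorem GrowsOn.of_pos {κ : ℝ} {f : E → ℝ} {a : E} {U : Set E}
    (h : ∀ x ∈ U, ∀ τ : ℝ, 0 < τ → x + τ • a ∈ U → κ * τ ≤ f (x + τ • a) - f x) :
    GrowsOn κ f a U := by
  intro x hx τ hτ
  rcases lt_trichotomy τ 0 with h0 | rfl | h0
  · have h1 := h (x + τ • a) hτ (-τ) (by linarith)
    have h2 : x + τ • a + (-τ) • a = x := by rw [neg_smul]; abel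
    rw [h2] at h1
    have h3 := h1 hx
    nlinarith
  · simp
  · have h1 := h x hx τ h0 hτ
    nlinarith

theorem GrowsOn.pos {κ : ℝ} {f : E → ℝ} {a : E} {U : Set E} (h : GrowsOn κ f a U) {x : E}
    (hx : x ∈ U) {τ : ℝ} (hτ : 0 < τ) (hxτ : x + τ • a ∈ U) : κ * τ ≤ f (x + τ • a) - f x := by
  have h1 := h x hx τ hxτ
  have h2 : τ * (κ * τ) ≤ τ * (f (x + τ • a) - f x) := by
    calc τ * (κ * τ) = κ * τ ^ 2 := by ring
      _ ≤ _ := h1
  exact le_of_mul_le_mul_left h2 hτ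

theorem GrowsOn.max {κ : ℝ} {f g : E → ℝ} {a : E} {U : Set E} (hf : GrowsOn κ f a U)
    (hg : GrowsOn κ g a U) : GrowsOn κ (fun x => max (f x) (g x)) a U := by
  refine GrowsOn.of_pos fun x hx τ hτ hxτ => ?_
  have h1 := hf.pos hx hτ hxτ
  have h2 := hg.pos hx hτ hxτ
  rcases le_total (f x) (g x) with h | h
  · rw [max_eq_right h]
    have := le_max_right (f (x + τ • a)) (g (x + τ • a))
    linarith
  · rw [max_eq_left h]
    have := le_max_left (f (x + τ • a)) (g (x + τ • a))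
    linarith

theorem GrowsOn.min {κ : ℝ} {f g : E → ℝ} {a : E} {U : Set E} (hf : GrowsOn κ f a U)
    (hg : GrowsOn κ g a U) : GrowsOn κ (fun x => min (f x) (g x)) a U := by
  refine GrowsOn.of_pos fun x hx τ hτ hxτ => ?_
  have h1 := hf.pos hx hτ hxτ
  have h2 := hg.pos hx hτ hxτ
  rcases le_total (f (x + τ • a)) (g (x + τ • a)) with h | h
  · rw [min_eq_left h]
    have := min_le_left (f x) (g x)
    linarith
  · rw [min_eq_right h]
    have := min_le_right (f x) (g x)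
    linarith

theorem GrowsOn.add {κ κ' : ℝ} {f g : E → ℝ} {a : E} {U : Set E} (hf : GrowsOn κ f a U)
    (hg : GrowsOn κ' g a U) : GrowsOn (κ + κ') (fun x => f x + g x) a U := by
  intro x hx τ hτ
  have h1 := hf x hx τ hτ
  have h2 := hg x hx τ hτ
  nlinarith

theorem GrowsOn.smul_dir {κ : ℝ} {f : E → ℝ} {a : E} {U : Set E} (hf : GrowsOn κ f a U)
    {m : ℝ} (hm : 0 < m) : GrowsOn (κ * m) f (m • a) U := by
  intro x hx τ hτ
  rw [smul_smul] at hτ ⊢
  have h1 := hf x hx (τ * m) hτ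
  have h2 : m * (κ * m * τ ^ 2) ≤ m * (τ * (f (x + (τ * m) • a) - f x)) := by
    calc m * (κ * m * τ ^ 2) = κ * (τ * m) ^ 2 := by ring
      _ ≤ τ * m * (f (x + (τ * m) • a) - f x) := h1
      _ = _ := by ring
  exact le_of_mul_le_mul_left h2 hm

section fam

variable {s : Set T} {f g : T → E → ℝ} {t₀ : T} {x₀ : E} {a : E}

theorem Grows.weak (hf : Grows s f t₀ x₀ a) : WGrows s f t₀ x₀ a := by
  obtain ⟨κ, hκ, U, hU, h⟩ := hf
  exact ⟨U, hU, h.mono fun t ht => ht.mono_const hκ.le⟩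

theorem Grows.max (hf : Grows s f t₀ x₀ a) (hg : Grows s g t₀ x₀ a) :
    Grows s (fun t x => max (f t x) (g t x)) t₀ x₀ a := by
  obtain ⟨κ, hκ, U, hU, h⟩ := hf
  obtain ⟨κ', hκ', V, hV, h'⟩ := hg
  refine ⟨min κ κ', lt_min hκ hκ', U ∩ V, inter_mem hU hV, ?_⟩
  filter_upwards [h, h'] with t h1 h2
  exact ((h1.mono inter_subset_left).mono_const (min_le_left _ _)).max
    ((h2.mono inter_subset_right).mono_const (min_le_right _ _))

theorem Grows.min (hf : Grows s f t₀ x₀ a) (hg : Grows s g t₀ x₀ a) :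
    Grows s (fun t x => min (f t x) (g t x)) t₀ x₀ a := by
  obtain ⟨κ, hκ, U, hU, h⟩ := hf
  obtain ⟨κ', hκ', V, hV, h'⟩ := hg
  refine ⟨Min.min κ κ', lt_min hκ hκ', U ∩ V, inter_mem hU hV, ?_⟩
  filter_upwards [h, h'] with t h1 h2
  exact ((h1.mono inter_subset_left).mono_const (min_le_left _ _)).min
    ((h2.mono inter_subset_right).mono_const (min_le_right _ _))

theorem WGrows.max (hf : WGrows s f t₀ x₀ a) (hg : WGrows s g t₀ x₀ a) :
    WGrows s (fun t x => max (f t x) (g t x)) t₀ x₀ a := by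
  obtain ⟨U, hU, h⟩ := hf
  obtain ⟨V, hV, h'⟩ := hg
  refine ⟨U ∩ V, inter_mem hU hV, ?_⟩
  filter_upwards [h, h'] with t h1 h2
  exact (h1.mono inter_subset_left).max (h2.mono inter_subset_right)

theorem WGrows.min (hf : WGrows s f t₀ x₀ a) (hg : WGrows s g t₀ x₀ a) :
    WGrows s (fun t x => min (f t x) (g t x)) t₀ x₀ a := by
  obtain ⟨U, hU, h⟩ := hf
  obtain ⟨V, hV, h'⟩ := hg
  refine ⟨U ∩ V, inter_mem hU hV, ?_⟩
  filter_upwards [h, h'] with t h1 h2
  exact (h1.mono inter_subset_left).min (h2.mono inter_subset_right)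

theorem Grows.congr (hf : Grows s f t₀ x₀ a)
    (h : ∃ U ∈ 𝓝 x₀, ∀ᶠ t in 𝓝[s] t₀, ∀ x ∈ U, f t x = g t x) : Grows s g t₀ x₀ a := by
  obtain ⟨κ, hκ, U, hU, h1⟩ := hf
  obtain ⟨V, hV, h2⟩ := h
  refine ⟨κ, hκ, U ∩ V, inter_mem hU hV, ?_⟩
  filter_upwards [h1, h2] with t e1 e2 x hx τ hτ
  rw [← e2 _ hτ.2, ← e2 _ hx.2]
  exact e1 x hx.1 τ hτ.1

/-- Continuity of a family of real functions at a point. -/
def CtAt (s : Set T) (f : T → E → ℝ) (t₀ : T) (x₀ : E) : Prop :=
  ContinuousWithinAt (fun p : T × E => f p.1 p.2) (s ×ˢ univ) (t₀, x₀)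

theorem CtAt.ev_lt (hf : CtAt s f t₀ x₀) (hg : CtAt s g t₀ x₀) (h : f t₀ x₀ < g t₀ x₀) :
    ∃ U ∈ 𝓝 x₀, ∀ᶠ t in 𝓝[s] t₀, ∀ x ∈ U, f t x < g t x :=
  ev_prod (Q := fun t x => f t x < g t x) (hf.eventually_lt hg h)

/-- Where `g` is strictly larger only `g` matters in a maximum. -/
theorem Grows.max_of_lt (hf : CtAt s f t₀ x₀) (hg : CtAt s g t₀ x₀) (h : f t₀ x₀ < g t₀ x₀)
    (H : Grows s g t₀ x₀ a) : Grows s (fun t x => Max.max (f t x) (g t x)) t₀ x₀ a := by
  refine H.congr ?_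
  obtain ⟨U, hU, h1⟩ := hf.ev_lt hg h
  exact ⟨U, hU, h1.mono fun t ht x hx => (max_eq_right (ht x hx).le).symm⟩

theorem Grows.min_of_lt (hf : CtAt s f t₀ x₀) (hg : CtAt s g t₀ x₀) (h : g t₀ x₀ < f t₀ x₀)
    (H : Grows s g t₀ x₀ a) : Grows s (fun t x => Min.min (f t x) (g t x)) t₀ x₀ a := by
  refine H.congr ?_
  obtain ⟨U, hU, h1⟩ := hg.ev_lt hf h
  exact ⟨U, hU, h1.mono fun t ht x hx => (min_eq_right (ht x hx).le).symm⟩

/-- The supremum of finitely many functions grows if the active ones do. -/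
theorem Grows.sup' {ι : Type*} [Fintype ι] [Nonempty ι] {F : T → ι → E → ℝ}
    (hc : ∀ i, CtAt s (fun t x => F t i x) t₀ x₀)
    (h : ∀ i, F t₀ i x₀ = Finset.univ.sup' Finset.univ_nonempty (fun i => F t₀ i x₀) →
      Grows s (fun t x => F t i x) t₀ x₀ a) :
    Grows s (fun t x => Finset.univ.sup' Finset.univ_nonempty (fun i => F t i x)) t₀ x₀ a := by
  classical
  obtain ⟨j, -, hj⟩ := Finset.exists_mem_eq_sup' (Finset.univ_nonempty (α := ι))
    (fun i => F t₀ i x₀)
  have key : ∀ Q : Finset ι, ∃ κ : ℝ, 0 < κ ∧ ∃ U ∈ 𝓝 x₀, ∀ᶠ t in 𝓝[s] t₀, ∀ i ∈ Q,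
      GrowsOn κ (F t i) a U ∨ ∀ x ∈ U, F t i x < F t j x := by
    intro Q
    induction Q using Finset.induction_on with
    | empty => exact ⟨1, one_pos, univ, univ_mem, Eventually.of_forall fun t i hi => by simp at hi⟩
    | insert i Q hi IH =>
      obtain ⟨κ, hκ, U, hU, h1⟩ := IH
      by_cases hij : F t₀ i x₀ = Finset.univ.sup' Finset.univ_nonempty (fun i => F t₀ i x₀)
      · obtain ⟨κ', hκ', V, hV, h2⟩ := h i hij
        refine ⟨Min.min κ κ', lt_min hκ hκ', U ∩ V, inter_mem hU hV, ?_⟩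
        filter_upwards [h1, h2] with t e1 e2 l hl
        rcases Finset.mem_insert.mp hl with rfl | hl
        · exact Or.inl ((e2.mono inter_subset_right).mono_const (min_le_right _ _))
        · rcases e1 l hl with e | e
          · exact Or.inl ((e.mono inter_subset_left).mono_const (min_le_left _ _))
          · exact Or.inr fun x hx => e x hx.1
      · have hlt : F t₀ i x₀ < F t₀ j x₀ := by
          rw [← hj]
          exact lt_of_le_of_ne (Finset.le_sup' (fun i => F t₀ i x₀) (Finset.mem_univ i)) hij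
        obtain ⟨V, hV, h2⟩ := (hc i).ev_lt (hc j) hlt
        refine ⟨κ, hκ, U ∩ V, inter_mem hU hV, ?_⟩
        filter_upwards [h1, h2] with t e1 e2 l hl
        rcases Finset.mem_insert.mp hl with rfl | hl
        · exact Or.inr fun x hx => e2 x hx.2
        · rcases e1 l hl with e | e
          · exact Or.inl (e.mono inter_subset_left)
          · exact Or.inr fun x hx => e x hx.1
  obtain ⟨κ, hκ, U, hU, h1⟩ := key Finset.univ
  refine ⟨κ, hκ, U, hU, ?_⟩
  filter_upwards [h1] with t ht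
  refine GrowsOn.of_pos fun x hx τ hτ hxτ => ?_
  obtain ⟨i, -, hi⟩ := Finset.exists_mem_eq_sup' (Finset.univ_nonempty (α := ι))
    (fun i => F t i x)
  have hgr : GrowsOn κ (F t i) a U := by
    rcases ht i (Finset.mem_univ _) with e | e
    · exact e
    · exfalso
      have h2 := e x hx
      have h3 : F t j x ≤ Finset.univ.sup' Finset.univ_nonempty (fun i => F t i x) :=
        Finset.le_sup' (fun i => F t i x) (Finset.mem_univ j)
      rw [hi] at h3
      linarith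
  rw [hi]
  have h2 := hgr.pos hx hτ hxτ
  have h3 : F t i (x + τ • a) ≤ Finset.univ.sup' Finset.univ_nonempty
      (fun i => F t i (x + τ • a)) :=
    Finset.le_sup' (fun i => F t i (x + τ • a)) (Finset.mem_univ i)
  linarith

/-- A linear functional positive on `a` grows along `a`. -/
theorem Grows.linear (l : E →L[ℝ] ℝ) (h : 0 < l a) : Grows s (fun _ x => l x) t₀ x₀ a := by
  refine ⟨l a, h, univ, univ_mem, Eventually.of_forall fun t x _ τ _ => ?_⟩
  show l a * τ ^ 2 ≤ τ * (l (x + τ • a) - l x)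
  rw [map_add, map_smul, smul_eq_mul]
  nlinarith

theorem Grows.smul_dir (hf : Grows s f t₀ x₀ a) {m : ℝ} (hm : 0 < m) :
    Grows s f t₀ x₀ (m • a) := by
  obtain ⟨κ, hκ, U, hU, h⟩ := hf
  exact ⟨κ * m, by positivity, U, hU, h.mono fun t ht => ht.smul_dir hm⟩

/-- A steep multiple of a growing function dominates a Lipschitz function. -/
theorem Grows.add_lip {κ : ℝ} (hf : ∃ U ∈ 𝓝 x₀, ∀ᶠ t in 𝓝[s] t₀, GrowsOn κ (f t) a U)
    {L : ℝ} (hL : L < κ) (hg : ∃ U ∈ 𝓝 x₀, ∀ᶠ t in 𝓝[s] t₀, ∀ x ∈ U, ∀ τ : ℝ, x + τ • a ∈ U →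
      |g t (x + τ • a) - g t x| ≤ L * |τ|) :
    Grows s (fun t x => f t x + g t x) t₀ x₀ a := by
  obtain ⟨U, hU, h1⟩ := hf
  obtain ⟨V, hV, h2⟩ := hg
  refine ⟨κ - L, by linarith, U ∩ V, inter_mem hU hV, ?_⟩
  filter_upwards [h1, h2] with t e1 e2 x hx τ hτ
  have i1 := e1 x hx.1 τ hτ.1
  have i2 := e2 x hx.2 τ hτ.2
  have i3 : |τ * (g t (x + τ • a) - g t x)| ≤ L * τ ^ 2 := by
    rw [abs_mul, ← sq_abs τ]
    calc |τ| * |g t (x + τ • a) - g t x| ≤ |τ| * (L * |τ|) :=
          mul_le_mul_of_nonneg_left i2 (abs_nonneg _)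
      _ = L * |τ| ^ 2 := by ring
  have i4 := (abs_le.mp i3).1
  nlinarith

end fam

/-! ### The realification lemma -/

/-- **Realification lemma**: if near `(t₀, x₀)` the imaginary part is the linear coordinate `ℓ`,
and the real part `A` is Lipschitz, then the family is regular at `x₀` as soon as: where
`A > 0` and `ℓ ≠ 0`, `A` does not increase with `|ℓ|` along `e`; where `A = 0`, there is a
direction in `{ℓ = 0}` along which `A` grows. -/
theorem RegAt.of_real {s : Set T} {F : T → E → ℂ}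
    (cont : ContinuousOn (fun p : T × E => F p.1 p.2) (s ×ˢ univ))
    (hom : ∀ t ∈ s, Hom1 (F t)) {t₀ : T} (ht₀ : t₀ ∈ s) {x₀ : E}
    (h0 : 0 ≤ (F t₀ x₀).re) (l : E →L[ℝ] ℝ) {e : E} (he : l e = 1)
    (him : ∃ U ∈ 𝓝 x₀, ∀ᶠ t in 𝓝[s] t₀, ∀ x ∈ U, (F t x).im = l x)
    (hlip : LocLip s (fun t x => (F t x).re) t₀ x₀)
    (hh : 0 < (F t₀ x₀).re → l x₀ ≠ 0 → ∃ U ∈ 𝓝 x₀, ∀ᶠ t in 𝓝[s] t₀, ∀ x ∈ U, ∀ τ : ℝ,
      x + τ • e ∈ U → τ * l x₀ * ((F t (x + τ • e)).re - (F t x).re) ≤ 0)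
    (hz : (F t₀ x₀).re = 0 → ∃ a, l a = 0 ∧ Grows s (fun t x => (F t x).re) t₀ x₀ a) :
    RegAt s F t₀ x₀ := by
  obtain ⟨U1, hU1, him⟩ := him
  obtain ⟨L, U2, hU2, hlip⟩ := hlip
  have him0 : (F t₀ x₀).im = l x₀ := (mem_of_mem_nhdsWithin ht₀ him) x₀ (mem_of_mem_nhds hU1)
  set L' : ℝ := |L| + ‖l‖ with hL'
  have hL0 : 0 ≤ L' := by positivity
  -- Lipschitz estimate for `F`
  have hF : ∀ᶠ t in 𝓝[s] t₀, ∀ x ∈ U1 ∩ U2, ∀ y ∈ U1 ∩ U2, ‖F t y - F t x‖ ≤ L' * ‖y - x‖ := by
    filter_upwards [him, hlip] with t h1 h2 x hx y hy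
    refine (Complex.norm_le_abs_re_add_abs_im _).trans ?_
    have e1 : |(F t y - F t x).re| ≤ |L| * ‖y - x‖ := by
      rw [Complex.sub_re]
      have := h2 y hy.2 x hx.2
      rw [Real.norm_eq_abs] at this
      exact this.trans (mul_le_mul_of_nonneg_right (le_abs_self L) (norm_nonneg _))
    have e2 : |(F t y - F t x).im| ≤ ‖l‖ * ‖y - x‖ := by
      rw [Complex.sub_im, h1 y hy.1, h1 x hx.1, ← map_sub]
      exact l.le_opNorm _
    rw [hL', add_mul]
    exact add_le_add e1 e2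
  rcases h0.eq_or_lt with hA | hA
  · -- zero level
    obtain ⟨a, ha, κ, hκ, U3, hU3, hgr⟩ := hz hA.symm
    by_cases hl : l x₀ = 0
    · -- both parts vanish
      set Λ : ℝ := |L| * ‖e‖ with hΛ
      have hΛ0 : 0 ≤ Λ := by positivity
      set M : ℝ := (Λ ^ 2 / 2 + 1 / 2) / κ with hM
      have hM0 : 0 < M := by positivity
      let B : ℂ →L[ℝ] E := (M • Complex.reCLM).smulRight a + Complex.imCLM.smulRight e
      have hB : ∀ c, B c = (M * c.re) • a + c.im • e := fun c => by simp [B]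
      obtain ⟨r, hr, hball⟩ := Metric.mem_nhds_iff.mp (inter_mem (inter_mem hU1 hU2) hU3)
      set δ : ℝ := r / 2 / (1 + M * ‖a‖ + ‖e‖) with hδ
      have hden : 0 < 1 + M * ‖a‖ + ‖e‖ := by positivity
      have hδ0 : 0 < δ := by positivity
      have hδr : δ * (1 + M * ‖a‖ + ‖e‖) = r / 2 := by rw [hδ]; field_simp
      refine RegAt.of_monotone_small (κ := 1 / 2) (Λ := L' * ‖B‖) (by norm_num) hδ0 B
        ⟨Metric.ball x₀ (r / 2), Metric.ball_mem_nhds _ (by linarith), ?_⟩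
      filter_upwards [hgr, him, hlip, hF] with t h1 h2 h3 h4 x hx c hc
      have hxr : ‖x - x₀‖ < r / 2 := by rwa [Metric.mem_ball, dist_eq_norm] at hx
      have hmem : ∀ y, ‖y - x‖ ≤ r / 2 → y ∈ (U1 ∩ U2) ∩ U3 := by
        intro y hy
        refine hball ?_
        rw [Metric.mem_ball, dist_eq_norm]
        have : y - x₀ = (y - x) + (x - x₀) := by abel
        rw [this]
        exact (norm_add_le _ _).trans_lt (by linarith)
      have hre : |c.re| ≤ δ := (Complex.abs_re_le_norm c).trans hc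
      have him' : |c.im| ≤ δ := (Complex.abs_im_le_norm c).trans hc
      have hx' : x ∈ (U1 ∩ U2) ∩ U3 := hmem x (by rw [sub_self, norm_zero]; linarith)
      have hx1 : x + c.im • e ∈ (U1 ∩ U2) ∩ U3 := by
        refine hmem _ ?_
        rw [add_sub_cancel_left, norm_smul, Real.norm_eq_abs]
        calc |c.im| * ‖e‖ ≤ δ * ‖e‖ := mul_le_mul_of_nonneg_right him' (norm_nonneg _)
          _ ≤ δ * (1 + M * ‖a‖ + ‖e‖) := mul_le_mul_of_nonneg_left (by
              have : 0 ≤ M * ‖a‖ := by positivity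
              linarith) hδ0.le
          _ = r / 2 := hδr
      have hx2 : x + B c ∈ (U1 ∩ U2) ∩ U3 := by
        refine hmem _ ?_
        rw [add_sub_cancel_left, hB]
        refine (norm_add_le _ _).trans ?_
        rw [norm_smul, norm_smul, Real.norm_eq_abs, Real.norm_eq_abs, abs_mul, abs_of_pos hM0]
        calc M * |c.re| * ‖a‖ + |c.im| * ‖e‖ ≤ M * δ * ‖a‖ + δ * ‖e‖ := by gcongr
          _ = δ * (M * ‖a‖ + ‖e‖) := by ring
          _ ≤ δ * (1 + M * ‖a‖ + ‖e‖) := mul_le_mul_of_nonneg_left (by linarith) hδ0.le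
          _ = r / 2 := hδr
      constructor
      · rw [inner_complex, Complex.sub_re, Complex.sub_im, h2 _ hx2.1.1, h2 _ hx'.1.1, ← map_sub,
          add_sub_cancel_left, hB, map_add, map_smul, map_smul, ha, he]
        simp only [smul_eq_mul, mul_zero, zero_add, mul_one]
        have e1 : x + ((M * c.re) • a + c.im • e) = (x + c.im • e) + (M * c.re) • a := by abel
        rw [hB, e1] at hx2
        rw [e1]
        have g1 := h1 (x + c.im • e) hx1.2 (M * c.re) hx2.2
        have g2 := h3 (x + c.im • e) hx1.1.2 x hx'.1.2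
        rw [add_sub_cancel_left, norm_smul, Real.norm_eq_abs, Real.norm_eq_abs] at g2
        set D1 := (F t (x + c.im • e + (M * c.re) • a)).re - (F t (x + c.im • e)).re with hD1
        set D2 := (F t (x + c.im • e)).re - (F t x).re with hD2
        have e2 : (F t (x + c.im • e + (M * c.re) • a)).re - (F t x).re = D1 + D2 := by
          rw [hD1, hD2]; ring
        rw [e2]
        have g3 : κ * M * c.re ^ 2 ≤ c.re * D1 := by
          have : M * (κ * M * c.re ^ 2) ≤ M * (c.re * D1) := by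
            calc M * (κ * M * c.re ^ 2) = κ * (M * c.re) ^ 2 := by ring
              _ ≤ M * c.re * D1 := g1
              _ = _ := by ring
          exact le_of_mul_le_mul_left this hM0
        have g4 : κ * M = Λ ^ 2 / 2 + 1 / 2 := by rw [hM]; field_simp
        rw [g4] at g3
        have g5 : |D2| ≤ Λ * |c.im| := by
          rw [hΛ]
          refine g2.trans ?_
          calc L * (|c.im| * ‖e‖) ≤ |L| * (|c.im| * ‖e‖) :=
                mul_le_mul_of_nonneg_right (le_abs_self L) (by positivity)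
            _ = _ := by ring
        have g6 : -(Λ * |c.im| * |c.re|) ≤ c.re * D2 := by
          have : |c.re * D2| ≤ Λ * |c.im| * |c.re| := by
            rw [abs_mul, mul_comm]
            exact mul_le_mul_of_nonneg_right g5 (abs_nonneg _)
          exact (abs_le.mp this).1
        have g7 : Λ * |c.im| * |c.re| ≤ Λ ^ 2 / 2 * c.re ^ 2 + 1 / 2 * c.im ^ 2 := by
          rw [← sq_abs c.re, ← sq_abs c.im]
          nlinarith [sq_nonneg (Λ * |c.re| - |c.im|)]
        have g8 : ‖c‖ ^ 2 = c.re ^ 2 + c.im ^ 2 := by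
          rw [Complex.sq_norm, Complex.normSq_apply]; ring
        rw [g8]
        nlinarith
      · refine (h4 _ hx'.1 _ hx2.1).trans ?_
        rw [add_sub_cancel_left, mul_assoc]
        exact mul_le_mul_of_nonneg_left (B.le_opNorm c) hL0
    · -- the imaginary part does not vanish
      have hv : F t₀ x₀ ≠ 0 := by
        intro h
        rw [h, Complex.zero_im] at him0
        exact hl him0.symm
      refine RegAt.of_angular' cont hom ht₀ hv (L := L') (κ := κ * l x₀ ^ 2)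
        (by positivity) ((-l x₀) • a) ⟨(U1 ∩ U2) ∩ U3, inter_mem (inter_mem hU1 hU2) hU3, ?_⟩
      filter_upwards [hgr, hF, him] with t h1 h2 h3 x hx
      refine ⟨fun y hy => h2 x hx.1 y hy.1, fun τ hτ => ?_⟩
      rw [smul_smul] at hτ ⊢
      have g1 := h1 x hx.2 _ hτ.2
      rw [inner_complex, Complex.sub_re, Complex.sub_im, h3 _ hτ.1.1, h3 _ hx.1.1, ← map_sub,
        add_sub_cancel_left, map_smul, ha]
      simp only [Complex.mul_re, Complex.mul_im, Complex.I_re, Complex.I_im, him0, ← hA]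
      simp only [smul_eq_mul, mul_zero, zero_mul, one_mul, zero_sub, zero_add, add_zero]
      calc κ * l x₀ ^ 2 * τ ^ 2 = κ * (τ * -l x₀) ^ 2 := by ring
        _ ≤ τ * -l x₀ * ((F t (x + (τ * -l x₀) • a)).re - (F t x).re) := g1
        _ = _ := by ring
  · -- positive real part
    have hv : F t₀ x₀ ≠ 0 := by
      intro h
      rw [h, Complex.zero_re] at hA
      exact lt_irrefl _ hA
    obtain ⟨U3, hU3, hh⟩ : ∃ U ∈ 𝓝 x₀, ∀ᶠ t in 𝓝[s] t₀, ∀ x ∈ U, ∀ τ : ℝ,
        x + τ • e ∈ U → τ * l x₀ * ((F t (x + τ • e)).re - (F t x).re) ≤ 0 := by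
      by_cases hl : l x₀ = 0
      · exact ⟨univ, univ_mem, Eventually.of_forall fun t x _ τ _ => by rw [hl]; simp⟩
      · exact hh hA hl
    refine RegAt.of_angular' cont hom ht₀ hv (L := L') (κ := (F t₀ x₀).re)
      hA e ⟨(U1 ∩ U2) ∩ U3, inter_mem (inter_mem hU1 hU2) hU3, ?_⟩
    filter_upwards [hh, hF, him] with t h1 h2 h3 x hx
    refine ⟨fun y hy => h2 x hx.1 y hy.1, fun τ hτ => ?_⟩
    have g1 := h1 x hx.2 _ hτ.2
    rw [inner_complex, Complex.sub_re, Complex.sub_im, h3 _ hτ.1.1, h3 _ hx.1.1, ← map_sub,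
      add_sub_cancel_left, map_smul, he]
    simp only [Complex.mul_re, Complex.mul_im, Complex.I_re, Complex.I_im, him0]
    simp only [smul_eq_mul, mul_one, zero_mul, one_mul, zero_sub, zero_add]
    nlinarith

/-- Families which agree off a closed set with a family of class `H` only have to be checked on
the closed set. -/
theorem HFam.glue {s : Set T} {F G : T → E → ℂ} (hG : HFam s G)
    (cont : ContinuousOn (fun p : T × E => F p.1 p.2) (s ×ˢ univ))
    (hom : ∀ t ∈ s, Hom1 (F t)) {K : Set E} (hK : IsClosed K)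
    (hFG : ∀ t ∈ s, ∀ x, x ∉ K → F t x = G t x)
    (hreg : ∀ t ∈ s, ∀ x ∈ K, x ≠ 0 → 0 ≤ (F t x).re → RegAt s F t x) : HFam s F := by
  refine ⟨cont, hom, fun t ht x hx h0 => ?_⟩
  by_cases hxK : x ∈ K
  · exact hreg t ht x hxK hx h0
  · rw [hFG t ht x hxK] at h0
    refine (hG.reg t ht x hx h0).congr ⟨Kᶜ, hK.isOpen_compl.mem_nhds hxK, ?_⟩
    filter_upwards [self_mem_nhdsWithin] with t' ht' y hy
    exact (hFG t' ht' y hy).symm

end Vale.Agent.P268.T
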